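import Mathlib

/-!
# P181 GN (Q8b): growth of the number of partitions (helper856)
-/

set_option autoImplicit false

namespace Vale.Agent.P181.GN.H856

/-- Add the part `c` and `3 S - c` parts equal to one. -/
def addPart (S z : ℕ) (c : Finset.Ico S (2 * S)) (_hS : 0 < S) (π : Nat.Partition z) :
    Nat.Partition (z + 3 * S) where
  parts := π.parts + ({(c : ℕ)} + Multiset.replicate (3 * S - c) 1)
  parts_pos := by
    intro i hi
    rw [Multiset.mem_add, Multiset.mem_add, Multiset.mem_singleton] at hi
    have hc := Finset.mem_Ico.mp c.2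
    rcases hi with h | h | h
    · exact π.parts_pos h
    · omega
    · rw [Multiset.eq_of_mem_replicate h]
      exact Nat.one_pos
  parts_sum := by
    have hc := Finset.mem_Ico.mp c.2
    rw [Multiset.sum_add, Multiset.sum_add, π.parts_sum, Multiset.sum_singleton,
      Multiset.sum_replicate, smul_eq_mul, mul_one]
    omega

theorem addPart_inj {S z : ℕ} {hS : 0 < S} {c : Finset.Ico S (2 * S)} {π π' : Nat.Partition z}
    (h : addPart S z c hS π = addPart S z c hS π') : π = π' := by
  have h1 := congrArg Nat.Partition.parts h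
  simp only [addPart] at h1
  exact Nat.Partition.ext (add_right_cancel h1)

theorem card_big_mul_le {n : ℕ} (S : ℕ) (ρ : Nat.Partition n) :
    ((Finset.Ico S (2 * S)).filter (fun c => c ∈ ρ.parts)).card * S ≤ n := by
  classical
  set A : Finset ℕ := (Finset.Ico S (2 * S)).filter (fun c => c ∈ ρ.parts) with hA
  have h1 : A.val ≤ ρ.parts := by
    rw [Finset.val_le_iff_val_subset]
    intro x hx
    rw [Finset.mem_val] at hx
    exact (Finset.mem_filter.mp hx).2
  have h3 : A.val.sum ≤ ρ.parts.sum := by
    obtain ⟨t, ht⟩ := Multiset.le_iff_exists_add.mp h1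
    rw [ht, Multiset.sum_add]
    omega
  rw [ρ.parts_sum] at h3
  have h4 : A.val.sum = A.sum (fun x => x) := by
    rw [Finset.sum, Multiset.map_id']
  have h5 : A.card * S ≤ A.sum (fun x => x) := by
    rw [← smul_eq_mul]
    apply Finset.card_nsmul_le_sum
    intro x hx
    exact (Finset.mem_Ico.mp (Finset.mem_filter.mp hx).1).1
  omega

theorem step (S z : ℕ) (hS : 0 < S) :
    S * Fintype.card (Nat.Partition z)
      ≤ ((z + 3 * S) / S) * Fintype.card (Nat.Partition (z + 3 * S)) := by
  classical
  have h1 : (Finset.univ : Finset (Finset.Ico S (2 * S) × Nat.Partition z)).card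
      = S * Fintype.card (Nat.Partition z) := by
    rw [Finset.card_univ, Fintype.card_prod, Fintype.card_coe, Nat.card_Ico]
    congr 1
    omega
  rw [← h1, ← Finset.card_univ (α := Nat.Partition (z + 3 * S))]
  refine (Finset.card_le_mul_card_image_of_maps_to
    (f := fun x : Finset.Ico S (2 * S) × Nat.Partition z => addPart S z x.1 hS x.2)
    (fun x _ => Finset.mem_univ _) _ ?_)
  intro ρ _
  refine le_trans ?_ ((Nat.le_div_iff_mul_le hS).mpr (card_big_mul_le S ρ))
  refine Finset.card_le_card_of_injOn (fun x => (x.1 : ℕ)) ?_ ?_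
  · intro x hx
    rw [Finset.mem_coe, Finset.mem_filter] at hx
    rw [Finset.mem_coe, Finset.mem_filter]
    refine ⟨x.1.2, ?_⟩
    rw [← hx.2]
    simp [addPart]
  · intro x hx y hy hxy
    rw [Finset.mem_coe, Finset.mem_filter] at hx hy
    obtain ⟨c, π⟩ := x
    obtain ⟨c', π'⟩ := y
    have hc : c = c' := Subtype.ext hxy
    subst hc
    have h5 : π = π' := addPart_inj (hx.2.trans hy.2.symm)
    rw [h5]

/-- Adding parts equal to one. -/
theorem mono (z s : ℕ) : Fintype.card (Nat.Partition z) ≤ Fintype.card (Nat.Partition (z + s)) := by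
  classical
  refine Fintype.card_le_of_injective (fun π : Nat.Partition z =>
    ({ parts := π.parts + Multiset.replicate s 1
       parts_pos := by
        intro i hi
        rw [Multiset.mem_add] at hi
        rcases hi with h | h
        · exact π.parts_pos h
        · rw [Multiset.eq_of_mem_replicate h]
          exact Nat.one_pos
       parts_sum := by
        rw [Multiset.sum_add, π.parts_sum, Multiset.sum_replicate, smul_eq_mul, mul_one] } :
      Nat.Partition (z + s))) ?_
  intro π π' h
  have h1 := congrArg Nat.Partition.parts h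
  exact Nat.Partition.ext (add_right_cancel h1)

/-- One step: `X p(z) ≤ p(z + 3 S)` as soon as `X (z + 3 S) ≤ S ^ 2`. -/
theorem step' (X S z : ℕ) (hS : 0 < S) (h : X * (z + 3 * S) ≤ S ^ 2) :
    X * Fintype.card (Nat.Partition z) ≤ Fintype.card (Nat.Partition (z + 3 * S)) := by
  have h1 := step S z hS
  set N := (z + 3 * S) / S with hN
  have hN0 : 0 < N := Nat.div_pos (by omega) hS
  have h2 : X * N ≤ S := by
    have h3 : X * N * S ≤ S * S := by
      calc X * N * S = X * (N * S) := by ring
        _ ≤ X * (z + 3 * S) := Nat.mul_le_mul_left _ (Nat.div_mul_le_self _ _)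
        _ ≤ S ^ 2 := h
        _ = S * S := by ring
    exact Nat.le_of_mul_le_mul_right h3 hS
  have h4 : N * (X * Fintype.card (Nat.Partition z))
      ≤ N * Fintype.card (Nat.Partition (z + 3 * S)) := by
    calc N * (X * Fintype.card (Nat.Partition z)) = (X * N) * Fintype.card (Nat.Partition z) := by
          ring
      _ ≤ S * Fintype.card (Nat.Partition z) := Nat.mul_le_mul_right _ h2
      _ ≤ _ := h1
  exact Nat.le_of_mul_le_mul_left h4 hN0

/-- `X ^ K p(z) ≤ p(z + r)` as soon as `r ≥ 3 K S` and `X (z + r) ≤ S ^ 2`. -/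
theorem growth (X K S z r : ℕ) (hS : 0 < S) (hr : 3 * K * S ≤ r) (h : X * (z + r) ≤ S ^ 2) :
    X ^ K * Fintype.card (Nat.Partition z) ≤ Fintype.card (Nat.Partition (z + r)) := by
  induction K generalizing z r with
  | zero => simpa using mono z r
  | succ K ih =>
    have hr1 : 3 * K * S + 3 * S ≤ r := by
      calc 3 * K * S + 3 * S = 3 * (K + 1) * S := by ring
        _ ≤ r := hr
    obtain ⟨r', rfl⟩ : ∃ r', r = 3 * S + r' := ⟨r - 3 * S, by omega⟩
    have h1 : X * (z + 3 * S) ≤ S ^ 2 := by
      refine le_trans (Nat.mul_le_mul_left _ ?_) h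
      omega
    have h2 := step' X S z hS h1
    have h3 := ih (z + 3 * S) r' (by omega) (by
      rw [add_assoc]
      exact h)
    calc X ^ (K + 1) * Fintype.card (Nat.Partition z)
        = X ^ K * (X * Fintype.card (Nat.Partition z)) := by ring
      _ ≤ X ^ K * Fintype.card (Nat.Partition (z + 3 * S)) := Nat.mul_le_mul_left _ h2
      _ ≤ Fintype.card (Nat.Partition (z + 3 * S + r')) := h3
      _ = Fintype.card (Nat.Partition (z + (3 * S + r'))) := by rw [add_assoc]

end Vale.Agent.P181.GN.H856
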