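import Vale.Agent.P181.GN.H856.Core
import Vale.Agent.P181.GN.H312.Q4
import Vale.Agent.P181.GN.H820.Q4s
import Vale.Agent.P181.GN.H787.Q8
import Vale.Agent.P181.GN.H605.Mid
import Vale.Agent.P181.GN.H317.Lit

set_option autoImplicit false

/-!
# P181, line GN: the core, all rows which are on main plugged (helper856)
-/

namespace Vale.Agent.P181.GN.H856

open Vale.Agent.P181.GN

/-- The core from the rows which are still open. -/
theorem core_of (q1 : Q1) (q2 : Q2) (q3 : Q3) (q5 : Q5) (q6 : Q6) (q7 : Q7) : Core :=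
  core q1 q2 q3 H312.q4 H820.q4s q5 q6 q7 (H787.q8 H820.fd)

end Vale.Agent.P181.GN.H856
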