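import Vale.Agent.P181.GN.Defs
import Vale.Agent.P181.TW.T1

set_option autoImplicit false

/-!
# P181, line GN: the core from the rows Q1 to Q8 (helper856)

`T(b, a) - T(a, b) = Σ_{y = a + 1}^{b} (G_y - L_y) - ERR3`,
`G_y = T(y, w) - T(y - 1, w)`, `L_y = T(b, y) - T(b, y - 1) ≤ NX_y(b - 1)`,
`ERR3 = (T(b, w) - T(b, b)) - (T(a, w) - T(a, b))`.
-/

open MvPolynomial

namespace Vale.Agent.P181.GN.H856

open Vale.Agent.P181.GN
open Vale.Agent.P181.TW (NX)

/-- `EL` vanishes below `0`. -/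
theorem EL_neg {k : ℕ} (tau : Fin k → ℕ) {z : ℤ} (hz : z < 0) : EL tau z = 0 := by
  have h : UH (gEL tau z) = ⊥ := by
    rw [Submodule.eq_bot_iff]
    intro f hf
    rw [mem_UH] at hf
    ext v
    by_contra h
    rw [coeff_zero] at h
    have h1 := (hf.1 v h).2.1
    have h2 : (0 : ℤ) ≤ (xs v : ℤ) := Int.natCast_nonneg _
    omega
  unfold EL
  rw [h, finrank_bot]

/-- The growth against the slack: `4 (w + 2) ^ 6 EL(z) ≤ SL_y`. -/
theorem small {k : ℕ} (tau : Fin (k + 1) → ℕ) (q7 : Q7) (q8 : Q8) (y m0 w X K S : ℕ) (z : ℤ)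
    (h0 : 2 ≤ tau 0) (hw : w = m0 + ∑ i, tau i) (hS : 0 < S) (hX : X * w ≤ S ^ 2)
    (hK : 8 * (w + 2) ^ 10 ≤ X ^ K) (h1 : z + (3 * K * S : ℕ) ≤ w)
    (h2 : z + (3 * K * S : ℕ) + y + (∑ i, tau i : ℕ) + 4 ≤ m0) :
    4 * (w + 2) ^ 6 * EL tau z ≤ Module.finrank ℂ (UH (gSL tau y m0)) := by
  rcases lt_or_ge z 0 with hz | hz
  · rw [EL_neg tau hz]
    simp
  obtain ⟨n, rfl⟩ := Int.eq_ofNat_of_zero_le hz
  have h3 : X ^ K * EL tau (n : ℤ) ≤ EL tau ((n : ℤ) + (3 * K * S : ℕ)) := by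
    refine q8 (k + 1) tau X K S n (3 * K * S) hS le_rfl (le_trans ?_ hX)
    refine Nat.mul_le_mul_left _ ?_
    exact_mod_cast h1
  have h4 := q7 k y m0 tau ((n : ℤ) + (3 * K * S : ℕ)) h0 h2
  have h5 : m0 + ∑ i, tau i + 2 = w + 2 := by omega
  rw [h5] at h4
  have h6 : 0 < 2 * (w + 2) ^ 4 := by positivity
  refine Nat.le_of_mul_le_mul_left ?_ h6
  calc 2 * (w + 2) ^ 4 * (4 * (w + 2) ^ 6 * EL tau (n : ℤ))
      = 8 * (w + 2) ^ 10 * EL tau (n : ℤ) := by ring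
    _ ≤ X ^ K * EL tau (n : ℤ) := Nat.mul_le_mul_right _ hK
    _ ≤ EL tau ((n : ℤ) + (3 * K * S : ℕ)) := h3
    _ ≤ _ := h4

/-- **[Core]** -/
theorem core (q1 : Q1) (q2 : Q2) (q3 : Q3) (q4 : Q4) (q4s : Q4s) (q5 : Q5) (q6 : Q6)
    (q7 : Q7) (q8 : Q8) : Core := by
  intro k a b m0 w X K S tau hab h0 hw ht hwab hS hKS ha hX hK
  set t : ℕ := ∑ i, tau i with htdef
  have hM : ∑ i, (Fin.cons m0 tau : Fin (k + 2) → ℕ) i = w := by
    rw [hw, htdef, Fin.sum_univ_succ]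
    simp
  obtain ⟨b', rfl⟩ : ∃ b', b = b' + 1 := ⟨b - 1, by omega⟩
  set b := b' + 1 with hb
  set U : ℕ → ℕ := fun n => T n w (k + 2) (Fin.cons m0 tau) with hU
  set D : ℕ → ℕ := fun d => T b d (k + 2) (Fin.cons m0 tau) with hD
  set SL : ℕ → ℕ := fun y => Module.finrank ℂ (UH (gSL tau y m0)) with hSL
  -- the errors of the windows
  have hstep : ∀ y, a < y → y ≤ b → ∃ e, 2 * e ≤ SL y ∧
      U (y - 1) + D y + SL y ≤ U y + D (y - 1) + e := by
    intro y hy1 hy2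
    obtain ⟨y', rfl⟩ : ∃ y', y = y' + 1 := ⟨y - 1, by omega⟩
    refine ⟨Module.finrank ℂ (UH (fun v : Lt (k + 1) →₀ ℕ =>
      gPP tau (y' + 1) m0 v ∧ y' + 1 - t < ln v)), ?_, ?_⟩
    · have h1 := q5 (k + 1) (y' + 1 - t) (y' + 1) m0 tau
      rw [← htdef] at h1
      have h2 : (m0 : ℤ) + 2 * (t : ℕ) - ((y' + 1 : ℕ) : ℤ) - ((y' + 1 - t : ℕ) : ℤ) - 1
          = (m0 : ℤ) + 3 * t - 2 * (y' + 1 : ℕ) - 1 := by
        omega
      rw [h2] at h1
      have h3 := small tau q7 q8 (y' + 1) m0 w X K S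
        ((m0 : ℤ) + 3 * t - 2 * (y' + 1 : ℕ) - 1) h0 hw hS hX hK
      rw [← htdef] at h3
      have hKS' : 2 * (3 * K * S) ≤ a := by nlinarith
      generalize 3 * K * S = r at h3 hKS'
      have h4 := h3 (by omega) (by omega)
      generalize EL tau ((m0 : ℤ) + 3 * t - 2 * (y' + 1 : ℕ) - 1) = e at h1 h4
      have h5 : (m0 + t + 1) ^ 2 ≤ (w + 2) ^ 6 := by
        calc (m0 + t + 1) ^ 2 ≤ (w + 2) ^ 2 := Nat.pow_le_pow_left (by omega) 2
          _ ≤ (w + 2) ^ 6 := Nat.pow_le_pow_right (by omega) (by norm_num)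
      have h6 : (m0 + t + 1) ^ 2 * e ≤ (w + 2) ^ 6 * e := Nat.mul_le_mul_right _ h5
      have h7 : 4 * (w + 2) ^ 6 * e = 4 * ((w + 2) ^ 6 * e) := by ring
      show 2 * _ ≤ Module.finrank ℂ (UH (gSL tau (y' + 1) m0))
      omega
    · have h1 : T y' w (k + 2) (Fin.cons m0 tau) +
          Module.finrank ℂ (EE (y' + 1) (k + 2) (Fin.cons m0 tau)) ≤
            T (y' + 1) w (k + 2) (Fin.cons m0 tau) := by
        have := q1 y' (k + 2) (Fin.cons m0 tau) (by omega)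
        rw [hM] at this
        exact this
      have h2 : Module.finrank ℂ (KK (y' + 1 - t) tau (y' + 1) m0) ≤
          Module.finrank ℂ (EE (y' + 1) (k + 2) (Fin.cons m0 tau)) :=
        q2 (k + 1) (y' + 1 - t) (y' + 1) m0 tau (by omega)
      have h3 := q3 (k + 1) (y' + 1 - t) (y' + 1) m0 tau
      have h4 : NX (k + 2) (y' + 1) b' (Fin.cons m0 tau) ≤
          Module.finrank ℂ (UH (gTT tau (y' + 1) m0)) := q4 (k + 1) b' (y' + 1) m0 tau
      have h5 := q4s (k + 1) (y' + 1) m0 tau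
      have h6 : T (b' + 1) (y' + 1) (k + 2) (Fin.cons m0 tau) ≤
          T (b' + 1) y' (k + 2) (Fin.cons m0 tau) +
            NX (k + 2) (y' + 1) b' (Fin.cons m0 tau) :=
        Vale.Agent.P181.TW.T1.e1 b' y' (k + 2) (Fin.cons m0 tau)
      show T (y' + 1 - 1) w (k + 2) (Fin.cons m0 tau) +
          T (b' + 1) (y' + 1) (k + 2) (Fin.cons m0 tau) +
          Module.finrank ℂ (UH (gSL tau (y' + 1) m0)) ≤
        T (y' + 1) w (k + 2) (Fin.cons m0 tau) +
          T (b' + 1) (y' + 1 - 1) (k + 2) (Fin.cons m0 tau) + _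
      rw [Nat.add_sub_cancel]
      omega
  -- the last error
  have h6 := q6 (k + 1) a b m0 w tau (by omega) hab hw (by omega)
  rw [← htdef] at h6
  have hq : 4 * (w / b) ≤ a / 32 := by
    have h1 : w / b ≤ a / 128 := by
      rw [Nat.div_le_iff_le_mul_add_pred (by omega)]
      have h3 : a < 128 * (a / 128 + 1) := by omega
      have h4 : 128 * w < b * (128 * (a / 128 + 1)) := by
        calc 128 * w ≤ a * b := hwab
          _ < (128 * (a / 128 + 1)) * b := Nat.mul_lt_mul_of_pos_right h3 (by omega)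
          _ = _ := by ring
      have h5 : 128 * w < 128 * (b * (a / 128 + 1)) := by
        calc 128 * w < b * (128 * (a / 128 + 1)) := h4
          _ = _ := by ring
      have h7 : w < b * (a / 128 + 1) := by omega
      have h8 : b * (a / 128 + 1) = b * (a / 128) + b := by ring
      omega
    omega
  have h7 : 4 * (w + 2) ^ 6 *
      EL tau ((m0 : ℤ) + 6 * t + 4 * (w / b : ℕ) - a - b) ≤ SL (a + 1) := by
    have h3 := small tau q7 q8 (a + 1) m0 w X K S
      ((m0 : ℤ) + 6 * t + 4 * (w / b : ℕ) - a - b) h0 hw hS hX hK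
    rw [← htdef] at h3
    have hKS' : 2 * (3 * K * S) ≤ a := by nlinarith
    generalize 3 * K * S = r at h3 hKS'
    generalize w / b = q at h3 hq ⊢
    exact h3 (by omega) (by omega)
  generalize EL tau ((m0 : ℤ) + 6 * t + 4 * (w / b : ℕ) - a - b) = e3 at h6 h7
  have h8 : 4 * (w + 2) ^ 6 * e3 = 4 * ((w + 2) ^ 6 * e3) := by ring
  rw [h8] at h7
  generalize (w + 2) ^ 6 * e3 = E3 at h6 h7
  have h9 : T b w (k + 2) (Fin.cons m0 tau) + T a b (k + 2) (Fin.cons m0 tau) ≤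
      T b b (k + 2) (Fin.cons m0 tau) + T a w (k + 2) (Fin.cons m0 tau) + E3 := h6
  -- the sum
  have hsum : ∀ n, a + 1 + n ≤ b → U a + D (a + 1 + n) + E3 ≤ U (a + 1 + n) + D a := by
    intro n
    induction n with
    | zero =>
      intro hn
      obtain ⟨e, he1, he2⟩ := hstep (a + 1) (by omega) (by omega)
      rw [Nat.add_sub_cancel] at he2
      simp only [Nat.add_zero]
      omega
    | succ n ih =>
      intro hn
      have ih := ih (by omega)
      obtain ⟨e, he1, he2⟩ := hstep (a + 1 + (n + 1)) (by omega) (by omega)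
      have h10 : a + 1 + (n + 1) - 1 = a + 1 + n := by omega
      rw [h10] at he2
      omega
  have h11 := hsum (b - (a + 1)) (by omega)
  have h12 : a + 1 + (b - (a + 1)) = b := by omega
  rw [h12] at h11
  have h13 : T a w (k + 2) (Fin.cons m0 tau) + T b b (k + 2) (Fin.cons m0 tau) + E3 ≤
      T b w (k + 2) (Fin.cons m0 tau) + T b a (k + 2) (Fin.cons m0 tau) := h11
  omega

end Vale.Agent.P181.GN.H856
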